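import Vale.Agent.Lib.P308.Balance

/-!
# A characterisation of the Jerrum-Sinclair class among connected graphs

For a connected graph, the ratio of near-perfect to perfect matchings is polynomially bounded
exactly when the numbers `monomer G x` of near-perfect matchings leaving a vertex `x` uncovered are
polynomially balanced over the vertices.
-/

namespace Vale.Agent.Results.P308.B_balance

open Vale.Agent.Lib.P308

theorem result {V : Type*} [Fintype V] [DecidableEq V] (G : SimpleGraph V) (hconn : G.Connected) :
    (∀ β : ℕ, (∀ x y : V, monomer G x ≤ β * monomer G y) →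
      (∀ u v : V, u ≠ v →
        count G {u, v} + (β * Fintype.card V) ^ 2 * count G ∅ ≤
          2 * G.dist u v * ((β * Fintype.card V) ^ 2 * count G ∅)) ∧
      (nearPerfect G).card ≤ 2 * β ^ 2 * Fintype.card V ^ 5 * count G ∅) ∧
    (∀ C : ℕ, (nearPerfect G).card ≤ C * count G ∅ →
      ∀ x y : V, monomer G x ≤ C * monomer G y) :=
  ⟨fun β hβ => ⟨fun _ _ huv => balance_criterion_pair G hconn β hβ huv,
      balance_criterion G hconn β hβ⟩,
    fun C hC x y => balance_converse G C hC x y⟩

end Vale.Agent.Results.P308.B_balance
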