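import Vale.Agent.Results.P308.A_transitive
import Vale.Agent.Results.P308.B_balance

namespace Vale.Agent.Results.P308.AAA_union

open Vale.Agent.Lib.P308

/-- Two complementary statements on the ratio of near-perfect to perfect matchings in a connected
graph, in one: the exact bound for vertex-transitive graphs; and for all connected graphs, the ratio
is polynomially bounded exactly when the vertex counts of near-perfect matchings are balanced. -/
theorem result {V : Type*} [Fintype V] [DecidableEq V] (G : SimpleGraph V) (hconn : G.Connected) :
    ((∀ x y : V, ∃ φ : G ≃g G, φ x = y) →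
      (∀ u v : V, u ≠ v → count G {u, v} + count G ∅ ≤ 2 * G.dist u v * count G ∅) ∧
        (nearPerfect G).card ≤ 2 * Fintype.card V ^ 3 * count G ∅) ∧
    (∀ β : ℕ, (∀ x y : V, monomer G x ≤ β * monomer G y) →
      (∀ u v : V, u ≠ v →
        count G {u, v} + (β * Fintype.card V) ^ 2 * count G ∅ ≤
          2 * G.dist u v * ((β * Fintype.card V) ^ 2 * count G ∅)) ∧
      (nearPerfect G).card ≤ 2 * β ^ 2 * Fintype.card V ^ 5 * count G ∅) ∧
    (∀ C : ℕ, (nearPerfect G).card ≤ C * count G ∅ →
      ∀ x y : V, monomer G x ≤ C * monomer G y) :=
  ⟨fun htrans => A_transitive.result G hconn htrans, (B_balance.result G hconn).1,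
    (B_balance.result G hconn).2⟩

end Vale.Agent.Results.P308.AAA_union
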