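import Vale.Agent.Lib.P308.NearPerfect

/-!
# Connected vertex-transitive graphs have polynomially few near-perfect matchings

For a connected vertex-transitive graph, the number of matchings missing exactly `u, v` is at most
`2 * dist u v - 1` times the number of perfect matchings. Summing over pairs, the total number of
near-perfect matchings is at most `2 * n^3` times the number of perfect matchings.
Every connected vertex-transitive graph thus belongs to the class covered by the
Jerrum-Sinclair criterion.
-/

namespace Vale.Agent.Results.P308.A_transitive

open Vale.Agent.Lib.P308

theorem result {V : Type*} [Fintype V] [DecidableEq V] (G : SimpleGraph V) (hconn : G.Connected)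
    (htrans : ∀ x y : V, ∃ φ : G ≃g G, φ x = y) :
    (∀ u v : V, u ≠ v → count G {u, v} + count G ∅ ≤ 2 * G.dist u v * count G ∅) ∧
      (nearPerfect G).card ≤ 2 * Fintype.card V ^ 3 * count G ∅ :=
  ⟨fun _ _ huv => count_pair_le G hconn htrans huv, card_nearPerfect_le G hconn htrans⟩

end Vale.Agent.Results.P308.A_transitive
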